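import Vale.Agent.P155Z.GR0.Pot

/-!
# P155: the Green function of the disc
-/

namespace Vale.Agent.P155.Tree.GR

open MeasureTheory Filter Topology Set Metric Vale.Agent.P155 Vale.Agent.P155.Uq
open Vale.Agent.P155.U InnerProductSpace
open scoped ContDiff ComplexConjugate Real Convolution

section ker

variable {z w : ℂ}

theorem norm_id (z w : ℂ) :
    ‖1 - conj z * w‖ ^ 2 = ‖w - z‖ ^ 2 + (1 - ‖z‖ ^ 2) * (1 - ‖w‖ ^ 2) := by
  simp only [Complex.sq_norm, Complex.normSq_apply, Complex.sub_re, Complex.sub_im, Complex.mul_re,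
    Complex.mul_im, Complex.conj_re, Complex.conj_im, Complex.one_re, Complex.one_im]
  ring

theorem sq_pos' (hz : z ∈ DD) : 0 < 1 - ‖z‖ ^ 2 := by
  nlinarith [mem_ball_zero_iff.1 hz, norm_nonneg z]

theorem norm_mul_le' (hz : z ∈ DD) (w : ℂ) : ‖conj z * w‖ ≤ ‖w‖ := by
  rw [norm_mul, Complex.norm_conj]
  exact mul_le_of_le_one_left (norm_nonneg _) (mem_ball_zero_iff.1 hz).le

theorem den_slit (hz : z ∈ DD) (hw : w ∈ DD) : 1 - conj z * w ∈ Complex.slitPlane := by
  rw [sub_eq_add_neg]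
  exact Complex.mem_slitPlane_of_norm_lt_one
    ((norm_neg _).trans_le (norm_mul_le' hz w) |>.trans_lt (mem_ball_zero_iff.1 hw))

theorem gD_eq (hz : z ∈ DD) (hw : w ∈ DD) (h : w ≠ z) :
    gD z w = -(1 / (2 * π)) * (Real.log ‖w - z‖ - Real.log ‖1 - conj z * w‖) := by
  rw [gD, norm_div, Real.log_div (norm_ne_zero_iff.2 (sub_ne_zero.2 h))
    (norm_ne_zero_iff.2 (Complex.slitPlane_ne_zero (den_slit hz hw)))]

theorem gD_self (z : ℂ) : gD z z = 0 := by simp [gD]

theorem gD_bounds (hz : z ∈ DD) (hw : w ∈ DD) : 0 ≤ gD z w ∧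
    gD z w ≤ (1 - ‖w‖ ^ 2) / ‖w - z‖ ^ 2 ∧ gD z w ≤ |Real.log ‖w - z‖| + 1 := by
  have h1 := sq_pos' hz
  have h2 := sq_pos' hw
  rcases eq_or_ne w z with rfl | h
  · rw [gD_self]
    exact ⟨le_rfl, by positivity, by positivity⟩
  have h3 : 0 < ‖w - z‖ := norm_pos_iff.2 (sub_ne_zero.2 h)
  have h4 : 0 < ‖1 - conj z * w‖ := norm_pos_iff.2 (Complex.slitPlane_ne_zero (den_slit hz hw))
  have h5 : 0 ≤ Real.log ‖1 - conj z * w‖ - Real.log ‖w - z‖ := sub_nonneg.2 (Real.log_le_log h3
    (le_of_sq_le_sq (by rw [norm_id]; nlinarith [mul_pos h1 h2]) (norm_nonneg _)))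
  have h6 : 1 / (2 * π) ≤ 1 := by
    rw [div_le_one (by positivity)]
    linarith [Real.pi_gt_three]
  have h7 : gD z w ≤ Real.log ‖1 - conj z * w‖ - Real.log ‖w - z‖ := by
    rw [gD_eq hz hw h]
    nlinarith
  refine ⟨?_, h7.trans ?_, h7.trans ?_⟩
  · rw [gD_eq hz hw h, neg_mul, ← mul_neg, neg_sub]
    positivity
  · have := Real.log_le_sub_one_of_pos (div_pos (pow_pos h4 2) (pow_pos h3 2))
    rw [Real.log_div (by positivity) (by positivity), Real.log_pow, Real.log_pow, norm_id, add_div,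
      div_self (by positivity), add_sub_cancel_left] at this
    have h8 : (1 - ‖z‖ ^ 2) * (1 - ‖w‖ ^ 2) / ‖w - z‖ ^ 2 ≤ (1 - ‖w‖ ^ 2) / ‖w - z‖ ^ 2 := by
      gcongr
      nlinarith [sq_nonneg ‖z‖]
    push_cast at this
    linarith
  · have h8 := norm_sub_le 1 (conj z * w)
    rw [norm_one] at h8
    linarith [Real.log_le_sub_one_of_pos h4, neg_abs_le (Real.log ‖w - z‖), norm_mul_le' hz w,
      mem_ball_zero_iff.1 hw]

theorem measurable_gD : Measurable fun p : ℂ × ℂ => gD p.1 p.2 :=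
  (((measurable_snd.sub measurable_fst).div (measurable_const.sub
    ((Complex.continuous_conj.measurable.comp measurable_fst).mul
      measurable_snd))).norm.log).const_mul _

end ker

variable {φ : ℂ → ℝ} (hφ : IsTest DD φ)
include hφ

theorem integrable_gD :
    Integrable (fun p : ℂ × ℂ => φ p.1 * φ p.2 * gD p.1 p.2) (volume.prod volume) := by
  obtain ⟨hm, M, hM⟩ := bmf_test hφ
  have i1 : IntegrableOn (fun t : ℂ => |Real.log ‖t‖| + 1) (closedBall 0 2) :=
    (P167.BVP.Fund.lea_abslog.add (locallyIntegrable_const 1)).integrableOn_isCompact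
      (isCompact_closedBall _ _)
  have i2 := ((test_int hφ).abs.convolution_integrand (ContinuousLinearMap.mul ℝ ℝ)
    (i1.integrable_indicator measurableSet_closedBall)).swap.const_mul M
  refine i2.mono' (((hm.comp measurable_fst).mul (hm.comp measurable_snd)).mul
    measurable_gD).aestronglyMeasurable (ae_of_all _ fun p => ?_)
  show _ ≤ M * (|φ p.1| * indicator _ _ (p.2 - p.1))
  have h0 : 0 ≤ M * (|φ p.1| * (closedBall 0 2).indicator (fun t : ℂ => |Real.log ‖t‖| + 1)
      (p.2 - p.1)) := mul_nonneg ((abs_nonneg _).trans (hM 0))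
    (mul_nonneg (abs_nonneg _) (indicator_nonneg (fun _ _ => by positivity) _))
  by_cases h1 : p.1 ∈ DD
  · by_cases h2 : p.2 ∈ DD
    · rw [indicator_of_mem (mem_closedBall_zero_iff.2 (by
        linarith [norm_sub_le p.2 p.1, mem_ball_zero_iff.1 h1, mem_ball_zero_iff.1 h2])),
        norm_mul, norm_mul, Real.norm_of_nonneg (gD_bounds h1 h2).1, ← mul_assoc, mul_comm M]
      exact mul_le_mul (mul_le_mul_of_nonneg_left (hM _) (abs_nonneg _)) (gD_bounds h1 h2).2.2
        (gD_bounds h1 h2).1 (mul_nonneg (abs_nonneg _) ((abs_nonneg _).trans (hM 0)))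
    · rwa [test_zero hφ h2, mul_zero, zero_mul, norm_zero]
  · refine le_of_eq_of_le ?_ h0
    simp [test_zero hφ h1]

theorem int_cont {L : ℂ → ℂ} (hL : ContinuousOn L DD) : Integrable fun z => (φ z : ℂ) * L z := by
  have h : tsupport (fun z => (φ z : ℂ) * L z) ⊆ tsupport φ :=
    closure_mono fun z hz h => hz (by simp [h])
  exact (((Complex.continuous_ofReal.comp hφ.1.continuous).continuousOn.mul
    hL).continuous_of_tsupport_subset isOpen_ball (h.trans hφ.2.2)).integrable_of_hasCompactSupport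
    (hφ.2.1.of_isClosed_subset (isClosed_tsupport _) h)

omit hφ in
theorem cont_den (w : ℂ) : Continuous fun z : ℂ => 1 - conj z * w :=
  continuous_const.sub (Complex.continuous_conj.mul continuous_const)

theorem int_log {w : ℂ} (hw : w ∈ DD) :
    Integrable fun z => (φ z : ℂ) * Complex.log (1 - conj z * w) :=
  int_cont hφ ((cont_den w).continuousOn.clog fun _ hz => den_slit hz hw)

theorem diff_F :
    DifferentiableOn ℂ (fun w => ∫ z, (φ z : ℂ) * Complex.log (1 - conj z * w)) DD := by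
  intro w hw
  obtain ⟨r, h1, h2⟩ := exists_between (mem_ball_zero_iff.1 hw)
  have hs : ball (0 : ℂ) r ⊆ DD := ball_subset_ball h2.le
  refine (hasDerivAt_integral_of_dominated_loc_of_deriv_le (μ := volume)
    (F' := fun w z => (φ z : ℂ) * (-conj z / (1 - conj z * w))) (bound := fun z => |φ z| * (1 - r)⁻¹)
    (isOpen_ball.mem_nhds (mem_ball_zero_iff.2 h1))
    ((isOpen_ball.eventually_mem hw).mono fun x hx => (int_log hφ hx).aestronglyMeasurable)
    (int_log hφ hw) (int_cont hφ (Complex.continuous_conj.neg.continuousOn.div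
      (cont_den w).continuousOn fun _ hz =>
        Complex.slitPlane_ne_zero (den_slit hz hw))).aestronglyMeasurable
    (ae_of_all _ fun z x hx => ?_) ((test_int hφ).abs.mul_const _)
    (ae_of_all _ fun z x hx => ?_)).2.differentiableAt.differentiableWithinAt
  · by_cases hz : z ∈ DD
    · rw [norm_mul, Complex.norm_real, norm_div, norm_neg, Complex.norm_conj, inv_eq_one_div]
      have := norm_sub_norm_le 1 (conj z * x)
      rw [norm_one] at this
      exact mul_le_mul_of_nonneg_left (div_le_div₀ zero_le_one (mem_ball_zero_iff.1 hz).le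
        (sub_pos.2 h2) (by linarith [norm_mul_le' hz x, mem_ball_zero_iff.1 hx])) (abs_nonneg _)
    · simp [test_zero hφ hz]
  · by_cases hz : z ∈ DD
    · refine HasDerivAt.const_mul _ (HasDerivAt.clog ?_ (den_slit hz (hs hx)))
      simpa using ((hasDerivAt_id x).const_mul (conj z)).const_sub 1
    · simpa [test_zero hφ hz] using hasDerivAt_const x (0 : ℂ)

theorem pot_eq {w : ℂ} (hw : w ∈ DD) : ∫ z, φ z * gD z w = -(1 / (2 * π)) *
    (-(∫ z, (φ z : ℂ) * Complex.log (1 - conj z * w)).re +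
      ((fun t : ℂ => Real.log ‖t‖) ⋆[ContinuousLinearMap.lsmul ℝ ℝ, volume] φ) w) := by
  have i1 : Integrable fun t => Real.log ‖t‖ * φ (w - t) :=
    P167.BVP.Fund.lea_int P167.BVP.Fund.lea_log (hφ.1.continuous.comp (continuous_sub_left w))
      (P198W.hasCompactSupport_comp_sub hφ.2.1 w)
  have i2 : Integrable fun z => -Complex.reCLM ((φ z : ℂ) * Complex.log (1 - conj z * w)) :=
    (Complex.reCLM.integrable_comp (int_log hφ hw)).neg
  rw [P198W.conv_apply, ← integral_sub_left_eq_self (fun t => Real.log ‖t‖ * φ (w - t)) volume w,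
    ← Complex.reCLM_apply, ← Complex.reCLM.integral_comp_comm (int_log hφ hw), ← integral_neg,
    ← integral_add i2 (i1.comp_sub_left w), ← integral_const_mul]
  refine integral_congr_ae ((Measure.ae_ne volume w).mono fun z hz => ?_)
  simp only [sub_sub_cancel, Complex.reCLM_apply, Complex.re_ofReal_mul, Complex.log_re]
  by_cases h : z ∈ DD
  · rw [gD_eq h hw hz.symm]
    ring
  · simp [test_zero hφ h]

theorem pot_spec {w : ℂ} (hw : w ∈ DD) : ContDiffAt ℝ ∞ (fun w => ∫ z, φ z * gD z w) w ∧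
    nlap (fun w => ∫ z, φ z * gD z w) w = φ w := by
  have e := (isOpen_ball.eventually_mem hw).mono fun x hx => pot_eq hφ hx
  have h1 := ((diff_F hφ).analyticAt (isOpen_ball.mem_nhds hw)).neg
  have h2 := P198W.conv_contDiff P167.BVP.Fund.lea_log hφ.1 hφ.2.1
  have h3 : ContDiffAt ℝ ∞ (fun w => -(∫ z, (φ z : ℂ) * Complex.log (1 - conj z * w)).re) w :=
    Complex.reCLM.contDiff.contDiffAt.comp w (h1.contDiffAt.restrict_scalars ℝ)
  refine ⟨(contDiffAt_const.mul (h3.add h2.contDiffAt)).congr_of_eventuallyEq e, ?_⟩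
  have h4 : nlap _ w = -(2 * π * φ (w - 0)) := congrArg Neg.neg
    ((P198W.lap_convolution P167.BVP.Fund.lea_log hφ.1 hφ.2.1 w).trans (P167.BVP.Fund.log_repr
      ((hφ.1.of_le P198W.two_le_infty).comp (contDiff_const.sub contDiff_id))
      (P198W.hasCompactSupport_comp_sub hφ.2.1 w)))
  rw [Y877.nlap_congr e, Y877.nlap_lin (h3.of_le P198W.two_le_infty)
    (h2.contDiffAt.of_le P198W.two_le_infty), h4, sub_zero]
  have h5 : nlap (fun w => -(∫ z, (φ z : ℂ) * Complex.log (1 - conj z * w)).re) w = 0 :=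
    Y877.nlap_harmonic h1.harmonicAt_re
  rw [h5]
  field_simp
  ring

theorem pot_bound : ∃ L, ∀ w ∈ DD, |∫ z, φ z * gD z w| ≤ L * (1 - ‖w‖ ^ 2) := by
  obtain ⟨r, hr, h⟩ := exists_lt_subset_ball (isClosed_tsupport φ) hφ.2.2
  obtain ⟨s, hs, h1⟩ := exists_between (max_lt hr zero_lt_one)
  obtain ⟨hs, hs0⟩ := max_lt_iff.1 hs
  obtain ⟨B, hB⟩ := (isCompact_closedBall (0 : ℂ) s).exists_bound_of_continuousOn
    (f := fun w => ∫ z, φ z * gD z w) fun w hw =>
      (pot_spec hφ (closedBall_subset_ball h1 hw)).1.continuousAt.continuousWithinAt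
  have h2 : 0 < 1 - s ^ 2 := by nlinarith
  refine ⟨max (|B| / (1 - s ^ 2)) ((∫ z, |φ z|) / (s - r) ^ 2), fun w hw => ?_⟩
  have h3 := sq_pos' hw
  rcases le_total ‖w‖ s with h4 | h4
  · refine ((hB w (mem_closedBall_zero_iff.2 h4)).trans (le_abs_self B)).trans
      (le_trans ?_ (mul_le_mul_of_nonneg_right (le_max_left _ _) h3.le))
    rw [div_mul_eq_mul_div, le_div_iff₀ h2]
    gcongr
  · refine le_trans ?_ (mul_le_mul_of_nonneg_right (le_max_right _ _) h3.le)
    rw [div_mul_eq_mul_div, mul_div_assoc, ← integral_mul_const]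
    refine norm_integral_le_of_norm_le (f := fun z => φ z * gD z w)
      ((test_int hφ).abs.mul_const _) (ae_of_all _ fun z => ?_)
    by_cases hz : z ∈ tsupport φ
    · obtain ⟨h5, h6, -⟩ := gD_bounds (hφ.2.2 hz) hw
      rw [norm_mul, Real.norm_of_nonneg h5]
      refine mul_le_mul_of_nonneg_left (h6.trans ?_) (abs_nonneg _)
      have := mem_ball_zero_iff.1 (h hz)
      gcongr
      linarith [norm_sub_norm_le w z]
    · simp [image_eq_zero_of_notMem_tsupport hz]

omit hφ

/-- cut-off functions of the disc -/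
noncomputable def cut (n : ℕ) (z : ℂ) : ℝ := Real.smoothTransition (n * (1 - ‖z - 0‖ ^ 2) - 1)

theorem test_cut (n : ℕ) : IsTest DD (cut n) := by
  have h : {z : ℂ | 1 ≤ n * (1 - ‖z‖ ^ 2)} ⊆ DD := fun z hz => mem_ball_zero_iff.2 (by
    by_contra h
    have : n * (1 - ‖z‖ ^ 2) ≤ 0 := mul_nonpos_of_nonneg_of_nonpos n.cast_nonneg (by nlinarith)
    exact absurd (le_trans hz this) (by norm_num))
  refine CI.isTest_of (Ω := univ) (isCompact_of_isClosed_isBounded
    (isClosed_le continuous_const (by fun_prop)) (isBounded_ball.subset h)) h (subset_univ _)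
    (fun z _ => (Real.smoothTransition.contDiff.comp ((contDiff_const.mul
      (contDiff_const.sub (Y877.sq_contDiff 0))).sub contDiff_const)).contDiffAt)
    fun z hz => Real.smoothTransition.zero_of_nonpos ?_
  rw [sub_zero]
  exact sub_nonpos.2 (le_of_not_ge hz)

theorem cut_one (K : Set ℂ) (hK : IsCompact K) (h : K ⊆ DD) :
    ∀ᶠ n in atTop, ∀ z ∈ K, ∀ᶠ x in 𝓝 z, cut n x = 1 := by
  obtain ⟨r, hr, h⟩ := exists_lt_subset_ball hK.isClosed h
  obtain ⟨s, hs, h1⟩ := exists_between (max_lt hr zero_lt_one)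
  obtain ⟨hs, hs0⟩ := max_lt_iff.1 hs
  have h2 : 0 < 1 - s ^ 2 := by nlinarith
  filter_upwards [(tendsto_natCast_atTop_atTop.atTop_mul_const h2).eventually_ge_atTop 2]
    with n hn z hz
  filter_upwards [isOpen_ball.mem_nhds (h hz)] with x hx
  refine Real.smoothTransition.one_of_one_le (le_sub_iff_add_le.2 (le_trans (by linarith)
    (mul_le_mul_of_nonneg_left (?_ : 1 - s ^ 2 ≤ _) n.cast_nonneg)))
  have := mem_ball_zero_iff.1 hx
  rw [sub_zero]
  nlinarith [norm_nonneg x]

theorem cut_bound : ∃ C, ∀ n, ∀ z ∈ DD, (1 - ‖z‖ ^ 2) ^ 2 * ‖fderiv ℝ (cut n) z‖ ^ 2 ≤ C := by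
  have hS : ContDiff ℝ 1 Real.smoothTransition := Real.smoothTransition.contDiff
  obtain ⟨C, hC⟩ := (isCompact_Icc (a := -1) (b := 1)).exists_bound_of_continuousOn
    (f := fun t => (t + 1) * deriv Real.smoothTransition t)
    ((continuous_id.add continuous_const).mul hS.continuous_deriv_one).continuousOn
  refine ⟨4 * C ^ 2, fun n z hz => ?_⟩
  have h0 := sq_pos' hz
  have h1 : HasDerivAt (fun s : ℝ => Real.smoothTransition (n * (1 - s) - 1))
      (deriv Real.smoothTransition (n * (1 - ‖z - 0‖ ^ 2) - 1) * (n * -1)) (‖z - 0‖ ^ 2) :=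
    (hS.differentiable one_ne_zero _).hasDerivAt.comp _
      ((((hasDerivAt_id _).const_sub 1).const_mul _).sub_const 1)
  have h2 := (h1.comp_hasFDerivAt z
    ((Y877.sq_contDiff 0).differentiable (by simp) z).hasFDerivAt).fderiv
  rw [show fderiv ℝ (cut n) z = _ from h2, norm_smul, mul_pow, Y877.norm_fderiv_sq, sub_zero, Real.norm_eq_abs, sq_abs]
  set t := n * (1 - ‖z‖ ^ 2) - 1 with ht
  have h3 : ((t + 1) * deriv Real.smoothTransition t) ^ 2 ≤ C ^ 2 := by
    rcases le_or_gt t 1 with h | h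
    · exact sq_le_sq' (neg_le_of_abs_le (hC t ⟨by rw [ht]; nlinarith, h⟩))
        (le_of_abs_le (hC t ⟨by rw [ht]; nlinarith, h⟩))
    · rw [Filter.EventuallyEq.deriv_eq (f := fun _ => 1) ((eventually_gt_nhds h).mono fun x hx =>
        Real.smoothTransition.one_of_one_le hx.le), deriv_const]
      simpa using sq_nonneg C
  calc _ = 4 * ‖z‖ ^ 2 * ((t + 1) * deriv Real.smoothTransition t) ^ 2 := by rw [ht]; ring
    _ ≤ _ := mul_le_mul (by linarith) h3 (sq_nonneg _) (by norm_num)

end Vale.Agent.P155.Tree.GR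

namespace Vale.Agent.P155.Tree

open MeasureTheory Filter Topology Set Metric GR

theorem gr0 : GR0 := by
  intro φ hφ
  refine ⟨integrable_gD hφ, ?_⟩
  obtain ⟨L, hL⟩ := pot_bound hφ
  obtain ⟨C, hC⟩ := cut_bound
  have hm : Measurable fun w => ∫ z, φ z * gD z w :=
    (((bmf_test hφ).1.comp measurable_fst).mul
      measurable_gD).stronglyMeasurable.integral_prod_left'.measurable
  rw [green_of_cut isOpen_ball (fun _ h => (pot_spec hφ h).1) (fun _ h => (pot_spec hφ h).2)
    isBounded_ball hφ test_cut cut_one ?_, integral_prod_symm _ (integrable_gD hφ)]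
  · refine congrArg _ (funext fun w => ?_)
    rw [← integral_const_mul]
    exact congrArg _ (funext fun z => by ring)
  rw [← integral_zero ℂ ℝ (μ := volume)]
  refine tendsto_integral_of_dominated_convergence (DD.indicator fun _ => L ^ 2 * C)
    (fun n => ((hm.pow_const 2).mul (((test_cut n).1.continuous_fderiv
      (by simp)).norm.measurable.pow_const 2)).aestronglyMeasurable)
    ((integrableOn_const measure_ball_lt_top.ne).integrable_indicator measurableSet_ball)
    (fun n => ae_of_all _ fun z => ?_) (ae_of_all _ fun z => ?_)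
  · by_cases hz : z ∈ DD
    · rw [indicator_of_mem hz, Real.norm_of_nonneg (by positivity)]
      refine (mul_le_mul_of_nonneg_right (sq_le_sq' (neg_le_of_abs_le (hL z hz))
        (le_of_abs_le (hL z hz))) (sq_nonneg _)).trans ?_
      rw [mul_pow, mul_assoc]
      exact mul_le_mul_of_nonneg_left (hC n z hz) (sq_nonneg _)
    · simp [hz, CI.fderiv_off (test_cut n) hz]
  · by_cases hz : z ∈ DD
    · refine tendsto_const_nhds.congr' ?_
      filter_upwards [cut_one {z} isCompact_singleton (singleton_subset_iff.2 hz)] with n hn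
      simp [Filter.EventuallyEq.fderiv_eq (f := fun _ => (1 : ℝ)) (hn z rfl)]
    · simp [CI.fderiv_off (test_cut _) hz]

theorem gr0_of (_ : EN) : GR0 := gr0

end Vale.Agent.P155.Tree
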