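import Vale.Agent.P155Z.Sk
import Vale.Agent.P155.U.ExtGreen
import Vale.Agent.P155.U.Inj
import Vale.Agent.P155.NT814Y.Gre
import Vale.Agent.P167.BVP.Fund

/-!
# P155: additivity and continuity of the Green energy, cut-off functions
-/

namespace Vale.Agent.P155.Tree

open MeasureTheory Filter Topology Set Metric Vale.Agent.P155 Vale.Agent.P155.Uq
open Vale.Agent.P155.U (test_zero test_int test_sq isTest_zero greenEnergy_le ibp norm_sq_clm)
open scoped ContDiff

namespace GR

variable {U : Set ℂ} {φ ψ v : ℂ → ℝ}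

theorem int_mul (hφ : BMf φ) (hv : IsTest U v) : Integrable fun z => φ z * v z := by
  obtain ⟨M, hM⟩ := hφ.2
  exact (test_int hv).bdd_mul hφ.1.aestronglyMeasurable (ae_of_all _ hM)

theorem bmf_test (hv : IsTest U v) : BMf v :=
  ⟨hv.1.continuous.measurable, hv.1.continuous.bounded_above_of_compact_support hv.2.1⟩

theorem gval_eq (hφ : BMf φ) (hv : IsTest U v) :
    gval φ v = ∫ z, (2 * (φ z * v z) - ‖fderiv ℝ v z‖ ^ 2) := by
  rw [integral_sub ((int_mul hφ hv).const_mul 2) (test_sq hv), integral_const_mul, gval]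

theorem test_sum {ι : Type} (I : Finset ι) {v : ι → ℂ → ℝ} (hv : ∀ i, IsTest U (v i)) :
    IsTest U fun z => ∑ i ∈ I, v i z := by
  classical
  induction I using Finset.induction_on with
  | empty => simpa using isTest_zero U
  | insert i I hi ih =>
    simp only [Finset.sum_insert hi]
    exact ⟨(hv i).1.add ih.1, (hv i).2.1.add ih.2.1,
      (tsupport_add _ _).trans (union_subset (hv i).2.2 ih.2.2)⟩

section add

variable {ι : Type} [Countable ι] {U : ι → Set ℂ} (hU : ∀ i, IsOpen (U i))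
  (hd : Pairwise (Function.onFun Disjoint U))
include hU hd

theorem hasSum_gval (hφ : BMf φ) (hv : IsTest (⋃ i, U i) v) :
    HasSum (fun i => gval φ ((U i).indicator v)) (gval φ v) := by
  have h := hasSum_integral_iUnion (μ := volume) (fun i => (hU i).measurableSet) hd
    ((((int_mul hφ hv).const_mul 2).sub (test_sq hv)).integrableOn (s := ⋃ i, U i))
  rw [setIntegral_eq_integral_of_forall_compl_eq_zero fun z hz => by
    simp [test_zero hv hz, NT814Y.fderiv_off hv hz]] at h
  rw [gval_eq hφ hv]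
  refine Eq.subst (motive := fun f => HasSum f _) (funext fun i => ?_) h
  rw [gval_eq hφ (NT814Y.isTest_piece' hU hd hv i), ← integral_indicator (hU i).measurableSet]
  refine congrArg _ (funext fun z => ?_)
  by_cases hz : z ∈ U i
  · rw [indicator_of_mem hz, indicator_of_mem hz, NT814Y.fderiv_piece (hU i) hz]
    rfl
  · simp [hz, NT814Y.fderiv_off (NT814Y.isTest_piece' hU hd hv i) hz]

theorem en1 (hb : Bornology.IsBounded (⋃ i, U i)) (hφ : BMf φ) :
    HasSum (fun i => greenEnergy (U i) φ) (greenEnergy (⋃ i, U i) φ) := by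
  classical
  obtain ⟨M, hM⟩ := hφ.2
  have hbi : ∀ i, Bornology.IsBounded (U i) := fun i => hb.subset (subset_iUnion U i)
  have h0 : ∀ i, 0 ≤ greenEnergy (U i) φ := fun i => green_nonneg (hbi i) hM
  have h1 : ∀ I : Finset ι, ∑ i ∈ I, greenEnergy (U i) φ ≤ greenEnergy (⋃ i, U i) φ := by
    intro I
    refine le_of_forall_pos_le_add fun ε hε => ?_
    have hε' : 0 < ε / (I.card + 1) := by positivity
    have hex : ∀ i, ∃ v, IsTest (U i) v ∧ greenEnergy (U i) φ - ε / (I.card + 1) < gval φ v := by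
      intro i
      obtain ⟨x, ⟨v, hv, rfl⟩, hx⟩ := (lt_csSup_iff (bdd_gval (hbi i) hM)
        ⟨_, _, isTest_zero _, rfl⟩).1 (sub_lt_self (greenEnergy (U i) φ) hε')
      exact ⟨v, hv, hx⟩
    choose v hv hvε using hex
    have hs : IsTest (⋃ i, U i) fun z => ∑ i ∈ I, v i z :=
      test_sum I fun i => ⟨(hv i).1, (hv i).2.1, (hv i).2.2.trans (subset_iUnion U i)⟩
    have e : ∀ i, (U i).indicator (fun z => ∑ j ∈ I, v j z) = if i ∈ I then v i else fun _ => 0 := by
      intro i
      funext z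
      by_cases hz : z ∈ U i
      · have : ∀ j, j ≠ i → v j z = 0 := fun j hj =>
          test_zero (hv j) fun h => Set.disjoint_left.1 (hd hj) h hz
        rw [indicator_of_mem hz]
        split_ifs with hi
        exacts [Finset.sum_eq_single_of_mem i hi fun j _ => this j,
          Finset.sum_eq_zero fun j hj => this j fun h => hi (h ▸ hj)]
      · rw [indicator_of_notMem hz]
        split_ifs
        exacts [(test_zero (hv i) hz).symm, rfl]
    have e2 : gval φ (fun z => ∑ j ∈ I, v j z) = ∑ i ∈ I, gval φ (v i) := by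
      refine (hasSum_gval hU hd hφ hs).unique ?_
      rw [Finset.sum_congr rfl fun i hi => congrArg (gval φ) ((e i).trans (if_pos hi)).symm]
      exact hasSum_sum_of_ne_finset_zero fun i hi => by simp [e i, hi, gval]
    have e3 := Finset.sum_le_sum fun i (_ : i ∈ I) => (hvε i).le
    rw [Finset.sum_sub_distrib, ← e2, Finset.sum_const, nsmul_eq_mul] at e3
    have e4 : I.card * (ε / (I.card + 1)) ≤ ε := by
      rw [← mul_div_assoc, div_le_iff₀ (by positivity)]
      nlinarith
    linarith [gval_le_green hb hM hs]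
  have h2 := summable_of_sum_le h0 h1
  refine (le_antisymm (h2.tsum_le_of_sum_le h1) (greenEnergy_le fun v hv => ?_)) ▸ h2.hasSum
  exact hasSum_le (fun i => gval_le_green (hbi i) hM (NT814Y.isTest_piece' hU hd hv i))
    (hasSum_gval hU hd hφ hv) h2.hasSum

end add

/-- the Poincare inequality -/
theorem poincare {r : ℝ} (hU : U ⊆ ball 0 r) (hv : IsTest U v) :
    ∫ z, v z ^ 2 ≤ 4 * r ^ 2 * ∫ z, ‖fderiv ℝ v z‖ ^ 2 := by
  have h1 : ContDiff ℝ 1 v := hv.1.of_le (by simp)
  have hc : HasCompactSupport fun z => v z ^ 2 := hv.2.1.comp_left (g := (· ^ 2)) (by simp)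
  have h := P167.BVP.Fund.lea_ibp (f := Complex.reCLM) Complex.reCLM.contDiff (h1.pow 2) hc 1
  have i1 : Integrable fun z => v z ^ 2 :=
    (h1.continuous.pow 2).integrable_of_hasCompactSupport hc
  have h2 : ∫ z, -(Complex.reCLM z * fderiv ℝ (fun z => v z ^ 2) z 1) ≤
      ∫ z, (1 / 2 * v z ^ 2 + 2 * r ^ 2 * ‖fderiv ℝ v z‖ ^ 2) := by
    refine integral_mono (Integrable.neg (Continuous.integrable_of_hasCompactSupport
      (Complex.reCLM.continuous.mul (((h1.pow 2).continuous_fderiv one_ne_zero).clm_apply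
        continuous_const)) (hc.fderiv_apply ℝ 1).mul_left))
      ((i1.const_mul _).add ((test_sq hv).const_mul _)) fun z => ?_
    have e : fderiv ℝ (fun z => v z ^ 2) z 1 = 2 * v z * fderiv ℝ v z 1 := by
      rw [((h1.differentiable one_ne_zero z).hasFDerivAt.pow 2).fderiv]
      simp
    show -(z.re * _) ≤ _
    rw [e, norm_sq_clm]
    by_cases hz : z ∈ U
    · have h3 : z.re ^ 2 ≤ r ^ 2 := sq_le_sq' (by
        linarith [neg_abs_le z.re, Complex.abs_re_le_norm z, mem_ball_zero_iff.1 (hU hz)])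
        (by linarith [le_abs_self z.re, Complex.abs_re_le_norm z, mem_ball_zero_iff.1 (hU hz)])
      nlinarith [sq_nonneg (v z + 2 * z.re * fderiv ℝ v z 1), sq_nonneg (fderiv ℝ v z 1),
        mul_nonneg (sq_nonneg r) (sq_nonneg (fderiv ℝ v z Complex.I))]
    · rw [test_zero hv hz, mul_zero, zero_mul, mul_zero, neg_zero]
      positivity
  rw [integral_neg, h, integral_add (i1.const_mul _) ((test_sq hv).const_mul _),
    integral_const_mul, integral_const_mul] at h2
  simp only [ContinuousLinearMap.fderiv, Complex.reCLM_apply, Complex.one_re, one_mul] at h2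
  linarith

theorem le_sqrt {a D E : ℝ} (h : ∀ t, 2 * (t * a) - t ^ 2 * D ≤ E) :
    a ≤ √E * √D := by
  have := discrim_le_zero (a := D) (b := -(2 * a)) (c := E) fun t => by nlinarith [h t]
  rw [← Real.sqrt_mul (by simpa using h 0)]
  exact Real.le_sqrt_of_sq_le (by rw [discrim] at this; nlinarith)

theorem test_smul (hv : IsTest U v) (t : ℝ) : IsTest U fun z => t * v z :=
  ⟨contDiff_const.mul hv.1, hv.2.1.mul_left, (tsupport_mul_subset_right).trans hv.2.2⟩

theorem gval_smul (hv : IsTest U v) (t : ℝ) : gval φ (fun z => t * v z) =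
    2 * (t * ∫ z, φ z * v z) - t ^ 2 * ∫ z, ‖fderiv ℝ v z‖ ^ 2 := by
  rw [gval, ← integral_const_mul t, ← integral_const_mul (t ^ 2)]
  congr 3 <;> funext z
  · ring
  · rw [fderiv_const_mul (hv.1.differentiable (by simp) z), norm_smul, mul_pow, Real.norm_eq_abs,
      sq_abs]

theorem pair_le {r : ℝ} (hr : 0 < r) (hm : MeasurableSet U) (hU : U ⊆ ball 0 r) (hφ : BMf φ)
    (hv : IsTest U v) :
    ∫ z, φ z * v z ≤ 2 * r * √(∫ z in U, φ z ^ 2) * √(∫ z, ‖fderiv ℝ v z‖ ^ 2) := by
  obtain ⟨M, hM⟩ := hφ.2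
  have i1 : IntegrableOn (fun z => φ z ^ 2) U := by
    refine Measure.integrableOn_of_bounded (M := M ^ 2)
      (isBounded_ball.subset hU).measure_lt_top.ne (hφ.1.pow_const 2).aestronglyMeasurable
      (ae_of_all _ fun z => ?_)
    rw [norm_pow, Real.norm_eq_abs]
    exact pow_le_pow_left₀ (abs_nonneg _) (hM z) 2
  have i2 : Integrable fun z => v z ^ 2 := by simpa only [sq] using int_mul (bmf_test hv) hv
  refine (le_sqrt (E := (2 * r) ^ 2 * ∫ z in U, φ z ^ 2) (D := ∫ z, ‖fderiv ℝ v z‖ ^ 2)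
    fun t => ?_).trans_eq (by rw [Real.sqrt_mul (sq_nonneg _), Real.sqrt_sq (by positivity)])
  have h3 : ∫ z, 2 * t * (φ z * v z) ≤
      ∫ z, ((2 * r) ^ 2 * U.indicator (fun z => φ z ^ 2) z + t ^ 2 / (4 * r ^ 2) * v z ^ 2) := by
    refine integral_mono ((int_mul hφ hv).const_mul _)
      (((i1.integrable_indicator hm).const_mul _).add (i2.const_mul _)) fun z => ?_
    by_cases hz : z ∈ U
    · simp only [indicator_of_mem hz]
      have : 0 ≤ (2 * r * φ z - t / (2 * r) * v z) ^ 2 := sq_nonneg _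
      refine le_of_sub_nonneg (this.trans_eq ?_)
      field_simp
      ring
    · simp [hz, test_zero hv hz]
  rw [integral_add ((i1.integrable_indicator hm).const_mul _) (i2.const_mul _),
    integral_const_mul, integral_const_mul, integral_const_mul, integral_indicator hm] at h3
  have h4 := mul_le_mul_of_nonneg_left (poincare hU hv) (by positivity : 0 ≤ t ^ 2 / (4 * r ^ 2))
  rw [← mul_assoc _ (4 * r ^ 2), div_mul_cancel₀ _ (by positivity)] at h4
  linarith

theorem sqrt_le {r : ℝ} (hr : 0 < r) (hm : MeasurableSet U) (hU : U ⊆ ball 0 r) (hφ : BMf φ)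
    (hψ : BMf ψ) :
    √(greenEnergy U φ) ≤ √(greenEnergy U ψ) + 2 * r * √(∫ z in U, (φ z - ψ z) ^ 2) := by
  obtain ⟨M, hM⟩ := hφ.2
  obtain ⟨M', hM'⟩ := hψ.2
  refine Real.sqrt_le_iff.2 ⟨by positivity, greenEnergy_le fun v hv => ?_⟩
  have h1 := le_sqrt fun t => (gval_smul (φ := ψ) hv t).symm.trans_le
    (gval_le_green (isBounded_ball.subset hU) hM' (test_smul hv t))
  have h2 := pair_le (φ := fun z => φ z - ψ z) hr hm hU
    ⟨hφ.1.sub hψ.1, M + M', fun z => (abs_sub _ _).trans (add_le_add (hM z) (hM' z))⟩ hv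
  simp only [sub_mul] at h2
  rw [integral_sub (int_mul hφ hv) (int_mul hψ hv)] at h2
  have h5 := Real.sq_sqrt (integral_nonneg fun _ => sq_nonneg _ : 0 ≤ ∫ z, ‖fderiv ℝ v z‖ ^ 2)
  generalize √(∫ z, ‖fderiv ℝ v z‖ ^ 2) = d at h1 h2 h5
  generalize 2 * r * √(∫ z in U, (φ z - ψ z) ^ 2) = a at h2 ⊢
  generalize √(greenEnergy U ψ) = b at h1 ⊢
  rw [← h5]
  nlinarith [sq_nonneg (b + a - d)]

theorem exists_cut {K : Set ℂ} (hK : IsCompact K) (hU : IsOpen U) (h : K ⊆ U) :
    ∃ ζ, IsTest U ζ ∧ (∀ z, 0 ≤ ζ z ∧ ζ z ≤ 1) ∧ ∀ z ∈ K, ∀ᶠ w in 𝓝 z, ζ w = 1 := by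
  obtain ⟨L, hL, h1, h2⟩ := exists_compact_between hK hU h
  obtain ⟨f, f0, f1, hf⟩ := exists_contMDiffMap_zero_one_nhds_of_isClosed (n := ⊤)
    (modelWithCornersSelf ℝ ℂ) isOpen_interior.isClosed_compl hK.isClosed
    (disjoint_compl_left_iff_subset.2 h1)
  have : tsupport f ⊆ L := closure_minimal (fun z hz => by
    by_contra h
    exact hz (f0.self_of_nhdsSet z fun h' => h (interior_subset h'))) hL.isClosed
  exact ⟨f, ⟨f.contMDiff.contDiff, hL.of_isClosed_subset (isClosed_tsupport _) this,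
    this.trans h2⟩, hf, fun z hz => f1.filter_mono (nhds_le_nhdsSet hz)⟩

end GR

open GR in
theorem en : EN := by
  refine ⟨fun ι _ U hU hd hb φ hφ => en1 hU hd hb hφ, fun Ω hΩ => ?_, fun U hU => ?_⟩
  · obtain ⟨r, hr, h⟩ := hΩ.subset_ball_lt 0 0
    refine ⟨2 * r, by positivity, fun U hU hUΩ φ ψ hφ hψ => abs_sub_le_iff.2 ⟨?_, ?_⟩⟩
    · linarith [sqrt_le hr hU.measurableSet (hUΩ.trans h) hφ hψ]
    · have := sqrt_le hr hU.measurableSet (hUΩ.trans h) hψ hφ
      simp only [sub_sq_comm (ψ _)] at this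
      linarith
  · obtain ⟨F, hF, h1, h2, h3⟩ := hU.exists_iUnion_isClosed
    choose ζ hζ using fun n : ℕ => exists_cut ((isCompact_closedBall (0 : ℂ) n).inter_left (hF n))
      hU (inter_subset_left.trans (h1 n))
    refine ⟨ζ, fun n => (hζ n).1, fun n => (hζ n).2.1, fun z hz => ?_⟩
    obtain ⟨k, hk⟩ := mem_iUnion.1 (h2.symm ▸ hz : z ∈ ⋃ n, F n)
    filter_upwards [eventually_ge_atTop k, tendsto_natCast_atTop_atTop.eventually_ge_atTop ‖z‖]
      with n hn hn'
    exact ((hζ n).2.2 z ⟨h3 hn hk, mem_closedBall_zero_iff.2 hn'⟩).self_of_nhds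

end Vale.Agent.P155.Tree
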