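import Vale.Agent.P155Z.GR0.En
import Vale.Agent.P155.Y877.Rad

/-!
# P155: a potential which vanishes at the boundary computes the Green energy
-/

namespace Vale.Agent.P155.Tree.GR

open MeasureTheory Filter Topology Set Metric Vale.Agent.P155 Vale.Agent.P155.Uq
open Vale.Agent.P155.U
open scoped ContDiff

variable {U : Set ℂ} {φ u v w ζ : ℂ → ℝ}

theorem test_mul (hu : ∀ z ∈ U, ContDiffAt ℝ ∞ u z) (hζ : IsTest U ζ) :
    IsTest U fun z => ζ z * u z :=
  CI.isTest_of hζ.2.1 hζ.2.2 subset_rfl (fun z hz => hζ.1.contDiffAt.mul (hu z hz))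
    fun z hz => by rw [image_eq_zero_of_notMem_tsupport hz, zero_mul]

section

variable (hU : IsOpen U) (hu : ∀ z ∈ U, ContDiffAt ℝ ∞ u z) (hnl : ∀ z ∈ U, nlap u z = φ z)
include hU hu hnl

omit hU hu in
theorem nlap_cut (hw : IsTest U w) (h : ∀ z ∈ tsupport w, ∀ᶠ x in 𝓝 z, ζ x = 1) (z : ℂ) :
    nlap (fun z => ζ z * u z) z * w z = φ z * w z := by
  by_cases hz : z ∈ tsupport w
  · rw [Y877.nlap_congr (v := u) ((h z hz).mono fun x hx => by simp [hx]), hnl z (hw.2.2 hz)]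
  · rw [image_eq_zero_of_notMem_tsupport hz, mul_zero, mul_zero]

/-- the weak form of the equation -/
theorem weak (hw : IsTest U w) :
    Integrable (fun z => fderiv ℝ u z 1 * fderiv ℝ w z 1 +
      fderiv ℝ u z Complex.I * fderiv ℝ w z Complex.I) ∧
    ∫ z, (fderiv ℝ u z 1 * fderiv ℝ w z 1 + fderiv ℝ u z Complex.I * fderiv ℝ w z Complex.I) =
      ∫ z, φ z * w z := by
  obtain ⟨ζ, hζ, -, h⟩ := exists_cut hw.2.1 hU hw.2.2
  have hv := test_mul hu hζ
  have e : ∀ z e, fderiv ℝ u z e * fderiv ℝ w z e =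
      fderiv ℝ (fun z => ζ z * u z) z e * fderiv ℝ w z e := by
    intro z e
    by_cases hz : z ∈ tsupport w
    · rw [Filter.EventuallyEq.fderiv_eq (f₁ := fun z => ζ z * u z) (f := u)
        ((h z hz).mono fun x hx => by simp [hx])]
    · simp [fderiv_of_notMem_tsupport (𝕜 := ℝ) hz]
  have i1 : ∀ e, Integrable fun z => fderiv ℝ (fun z => ζ z * u z) z e * fderiv ℝ w z e := fun e =>
    ((smooth_dir hv.1 e).continuous.mul
      (smooth_dir hw.1 e).continuous).integrable_of_hasCompactSupport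
      (hw.2.1.fderiv_apply ℝ e).mul_left
  have i2 : ∀ e, Integrable fun z =>
      fderiv ℝ (fun x => fderiv ℝ (fun z => ζ z * u z) x e) z e * w z := fun e =>
    ((smooth_dir (smooth_dir hv.1 e) e).continuous.mul
      hw.1.continuous).integrable_of_hasCompactSupport hw.2.1.mul_left
  simp only [e]
  refine ⟨(i1 _).add (i1 _), ?_⟩
  rw [integral_add (i1 _) (i1 _), ibp hv.1 hw.1 hw.2.1, ibp hv.1 hw.1 hw.2.1, ← neg_add,
    ← integral_add (i2 _) (i2 _), ← integral_neg]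
  refine congrArg _ (funext fun z => ?_)
  rw [← nlap_cut hnl hw h z, nlap]
  ring

theorem energy_cut (hζ : IsTest U ζ) (h1 : ∀ z ∈ tsupport φ, ζ z = 1) :
    ∫ z, ‖fderiv ℝ (fun z => ζ z * u z) z‖ ^ 2 =
      (∫ z, φ z * u z) + ∫ z, u z ^ 2 * ‖fderiv ℝ ζ z‖ ^ 2 := by
  have hv := test_mul hu hζ
  have hw := test_mul (fun z _ => hv.1.contDiffAt) hζ
  obtain ⟨i1, h2⟩ := weak hU hu hnl hw
  have e : ∀ z, u z ^ 2 * ‖fderiv ℝ ζ z‖ ^ 2 = ‖fderiv ℝ (fun z => ζ z * u z) z‖ ^ 2 -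
      (fderiv ℝ u z 1 * fderiv ℝ (fun z => ζ z * (ζ z * u z)) z 1 +
        fderiv ℝ u z Complex.I * fderiv ℝ (fun z => ζ z * (ζ z * u z)) z Complex.I) := by
    intro z
    by_cases hz : z ∈ U
    · have d1 := hζ.1.differentiable (by simp) z
      have d2 := (hu z hz).differentiableAt (by simp)
      rw [norm_sq_clm, norm_sq_clm, fderiv_fun_mul d1 (d1.fun_mul d2), fderiv_fun_mul d1 d2]
      simp only [add_apply, smul_apply, smul_eq_mul]
      ring
    · simp [CI.fderiv_off hζ hz, CI.fderiv_off hv hz, CI.fderiv_off hw hz]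
  simp only [e]
  rw [integral_sub (test_sq hv) i1, h2, add_comm, eq_comm, sub_add_eq_add_sub, sub_eq_iff_eq_add]
  refine congrArg _ (congrArg _ (funext fun z => ?_))
  by_cases hz : z ∈ tsupport φ
  · rw [h1 z hz, one_mul, one_mul]
  · rw [image_eq_zero_of_notMem_tsupport hz, zero_mul, zero_mul]

theorem green_of_cut (hb : Bornology.IsBounded U) (hφ : IsTest U φ) {ζ : ℕ → ℂ → ℝ}
    (hζ : ∀ n, IsTest U (ζ n))
    (h1 : ∀ K, IsCompact K → K ⊆ U → ∀ᶠ n in atTop, ∀ z ∈ K, ∀ᶠ x in 𝓝 z, ζ n x = 1)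
    (h2 : Tendsto (fun n => ∫ z, u z ^ 2 * ‖fderiv ℝ (ζ n) z‖ ^ 2) atTop (𝓝 0)) :
    greenEnergy U φ = ∫ z, φ z * u z := by
  obtain ⟨M, hM⟩ := (bmf_test hφ).2
  have h3 := (h1 _ hφ.2.1 hφ.2.2).mono fun n hn z hz => (hn z hz).self_of_nhds
  refine le_antisymm (greenEnergy_le fun v hv => ?_) ?_
  · refine ge_of_tendsto (by simpa using h2.const_add (∫ z, φ z * u z)) ?_
    filter_upwards [h3, h1 _ hv.2.1 hv.2.2] with n hn hn'
    have hw := test_mul hu (hζ n)
    have := energy_identity hw.1 hw.2.1 hv.1 hv.2.1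
    simp only [nlap_cut hnl hv hn'] at this
    rw [this, energy_cut hU hu hnl (hζ n) hn]
    exact sub_le_self _ (integral_nonneg fun _ => sq_nonneg _)
  · refine le_of_tendsto (by simpa using h2.const_sub (∫ z, φ z * u z)) ?_
    filter_upwards [h3] with n hn
    refine le_of_eq_of_le ?_ (gval_le_green hb hM (test_mul hu (hζ n)))
    have : ∫ z, φ z * (ζ n z * u z) = ∫ z, φ z * u z := by
      refine congrArg _ (funext fun z => ?_)
      by_cases hz : z ∈ tsupport φ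
      · rw [hn z hz, one_mul]
      · rw [image_eq_zero_of_notMem_tsupport hz, zero_mul, zero_mul]
    rw [gval, this, energy_cut hU hu hnl (hζ n) hn]
    ring

end

end Vale.Agent.P155.Tree.GR
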